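import Vale.Agent.P202Y.YD9

namespace Vale.Agent.P202Z

open IsLocalRing Vale.Agent.P202 Vale.Agent.P202Y

universe u v

theorem reduce_complete_proved (D : ℕ) (R : Type u) (S : Type v) [CommRing R] [IsLocalRing R]
    [IsNoetherianRing R] [CommRing S] [IsLocalRing S] [IsNoetherianRing S] [Algebra R S]
    [Module.Flat R S] [IsLocalHom (algebraMap R S)] [Algebra ℚ R] (hD : ringKrullDim R = D) :
    ∃ (R' : Type u) (S' : Type v) (_ : CommRing R') (_ : IsLocalRing R')
      (_ : IsNoetherianRing R') (_ : IsAdicComplete (maximalIdeal R') R') (_ : CommRing S')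
      (_ : IsLocalRing S') (_ : IsNoetherianRing S') (_ : IsAdicComplete (maximalIdeal S') S')
      (_ : Algebra R' S') (_ : Module.Flat R' S') (_ : IsLocalHom (algebraMap R' S'))
      (_ : Algebra ℚ R'), ringKrullDim R' = D ∧ ringKrullDim S' = D ∧
      (∃ N, maximalIdeal S' ^ N ≤ (maximalIdeal R').map (algebraMap R' S')) ∧
      (∀ x, HasMult R x → HasMult R' x) ∧
      (∀ x x', HasMult S x → HasMult S' x' → x' ≤ x) := by
  -- dimensions
  have hover : (maximalIdeal S).LiesOver (maximalIdeal R) := liesOver_max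
  have h1 := Ideal.height_eq_height_add_of_liesOver_of_hasGoingDown (maximalIdeal R)
    (maximalIdeal S)
  obtain ⟨n, hn⟩ := exists_dim_nat (R := S)
  have h2 : (maximalIdeal R).height = (D : ℕ∞) := by
    have := IsLocalRing.maximalIdeal_height_eq_ringKrullDim (R := R)
    rw [hD] at this
    exact_mod_cast this
  have h3 : (maximalIdeal S).height = (n : ℕ∞) := by
    have := IsLocalRing.maximalIdeal_height_eq_ringKrullDim (R := S)
    rw [hn] at this
    exact_mod_cast this
  have hle : D ≤ n := by
    rw [h2, h3] at h1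
    have : (D : ℕ∞) ≤ n := by
      rw [h1]
      exact le_self_add
    exact_mod_cast this
  obtain ⟨f, rfl⟩ := Nat.exists_eq_add_of_le hle
  obtain ⟨e, heS, hUX⟩ := hasMult_UX (A := S) (D + f) hn
  obtain ⟨T, _, _, _, _, _, _, hT, hTX⟩ := exists_art D hD e f S hn hUX
  -- completions
  let R' := AdicCompletion (maximalIdeal R) R
  let S' := AdicCompletion (maximalIdeal T) T
  have hR'n : IsNoetherianRing R' := YD9_noeth R
  have hS'n : IsNoetherianRing S' := YD9_noeth T
  have hfR : Module.Flat R R' := AdicCompletion.flat_of_isNoetherian _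
  have hfT : Module.Flat T S' := AdicCompletion.flat_of_isNoetherian _
  obtain ⟨i, hRS, hlocRS, hcomp⟩ := ext_trans R T S'
  obtain ⟨j, htow, hlocj⟩ := YD9_hom (R := R) (S := S')
  have hflat : Module.Flat R' S' := YD9_flat (R := R) (R' := R') (S := S') (maximalIdeal R)
    AdicCompletion.maximalIdeal_eq_map.symm (YD9_approx R)
  have hdR' : ringKrullDim R' = D := by
    rw [dim_eq (R := R) (S := R') (artin_fibre_field R R'
      AdicCompletion.maximalIdeal_eq_map.symm), hD]
  have hdS' : ringKrullDim S' = D := by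
    rw [dim_eq (R := T) (S := S') (artin_fibre_field T S'
      AdicCompletion.maximalIdeal_eq_map.symm), hT]
  have hclR : ∀ N, cl (maximalIdeal R' ^ N) = cl (maximalIdeal R ^ N) := by
    intro N
    have hm : (maximalIdeal R).map (algebraMap R R') = maximalIdeal R' :=
      AdicCompletion.maximalIdeal_eq_map.symm
    rw [← hm, ← Ideal.map_pow]
    exact cl_flat R R' hm _
  have hclT : ∀ N, cl (maximalIdeal S' ^ N) = cl (maximalIdeal T ^ N) := by
    intro N
    have hm : (maximalIdeal T).map (algebraMap T S') = maximalIdeal S' :=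
      AdicCompletion.maximalIdeal_eq_map.symm
    rw [← hm, ← Ideal.map_pow]
    exact cl_flat T S' hm _
  refine ⟨R', S', inferInstance, inferInstance, hR'n, inferInstance, inferInstance, inferInstance,
    hS'n, inferInstance, j, hflat, hlocj,
    ((algebraMap R R').comp (algebraMap ℚ R)).toAlgebra, hdR', hdS', ?_, ?_, ?_⟩
  · exact exists_pow_le_fibre (artin_of_dim_eq D hdR' (by rw [hdS', hdR']))
  · rintro x ⟨d, hd, hx⟩
    refine ⟨d, ?_, ?_⟩
    · rw [hdR', ← hD, hd]
    · have h5 : ∀ N, Module.length R' (R' ⧸ maximalIdeal R' ^ N) =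
          Module.length R (R ⧸ maximalIdeal R ^ N) := hclR
      simp only [h5]
      exact hx
  · intro x x' hx hx'
    have h5 : x' ≤ e := hasMult_le D hdS' hx' (UX_congr hclT hTX)
    have h6 : x = e := by
      obtain ⟨d, hd, hx⟩ := hx
      obtain ⟨d', hd', hx2⟩ := heS
      have : d = d' := by
        rw [hd] at hd'
        exact_mod_cast hd'
      subst this
      exact tendsto_nhds_unique hx hx2
    rw [h6]
    exact h5

end Vale.Agent.P202Z
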